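import Mathlib
import Vale.Agent.Lib.P194.H7.Restrict

/-!
# Zero divisors supported in a coset of a subgroup whose group algebra is a domain (P201)

`eq_zero_of_coset_support`: let `H` be a subgroup of a group `G` such that the group algebra
of `H` has no zero divisors.  If the support of `a` lies in a left coset `g₀ H` and
`a * b = 0` in the group algebra of `G`, then `a = 0` or `b = 0`.
-/

namespace Vale.Agent.Lib.P201.H7

open Vale.Agent.Lib.P194.H7

variable {K G : Type*} [CommRing K] [Group G]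

theorem eq_zero_of_domain_subgroup (H : Subgroup G)
    (hH : ∀ x y : MonoidAlgebra K H, x * y = 0 → x = 0 ∨ y = 0)
    (a z : MonoidAlgebra K G) (ha : ∀ g ∈ a.coeff.support, g ∈ H)
    (hz : ∀ g ∈ z.coeff.support, g ∈ H) (haz : a * z = 0) : a = 0 ∨ z = 0 := by
  classical
  have hinj : Function.Injective (H.subtype : H → G) := Subtype.val_injective
  have ha₀ : MonoidAlgebra.mapDomain H.subtype (MonoidAlgebra.comapDomain H.subtype hinj a) = a :=
    MonoidAlgebra.mapDomain_comapDomain (fun g hg => ⟨⟨g, ha g hg⟩, rfl⟩) hinj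
  have hz₀ : MonoidAlgebra.mapDomain H.subtype (MonoidAlgebra.comapDomain H.subtype hinj z) = z :=
    MonoidAlgebra.mapDomain_comapDomain (fun g hg => ⟨⟨g, hz g hg⟩, rfl⟩) hinj
  have hprod : MonoidAlgebra.comapDomain H.subtype hinj a *
      MonoidAlgebra.comapDomain H.subtype hinj z = 0 := by
    apply MonoidAlgebra.mapDomain_injective hinj
    rw [MonoidAlgebra.mapDomain_mul, ha₀, hz₀, haz, MonoidAlgebra.mapDomain_zero]
  rcases hH _ _ hprod with h | h
  · left
    rw [← ha₀, h, MonoidAlgebra.mapDomain_zero]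
  · right
    rw [← hz₀, h, MonoidAlgebra.mapDomain_zero]

/-- A nonzero element of a group algebra whose support lies in a left coset of a subgroup
`H` with a zero-divisor-free group algebra is not a left zero divisor. -/
theorem eq_zero_of_coset_support (H : Subgroup G)
    (hH : ∀ x y : MonoidAlgebra K H, x * y = 0 → x = 0 ∨ y = 0)
    (g₀ : G) (a b : MonoidAlgebra K G) (hsupp : ∀ g ∈ a.coeff.support, g₀⁻¹ * g ∈ H)
    (hab : a * b = 0) : a = 0 ∨ b = 0 := by
  classical
  by_contra hne
  push Not at hne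
  obtain ⟨ha, hb⟩ := hne
  have hbne : b.coeff.support.Nonempty := by
    rw [Finset.nonempty_iff_ne_empty]
    intro h
    exact hb (MonoidAlgebra.ext (Finsupp.support_eq_empty.mp h))
  obtain ⟨x, hx⟩ := hbne
  have h2 : MonoidAlgebra.single g₀ (1 : K) * MonoidAlgebra.single g₀⁻¹ (1 : K) = 1 := by
    rw [MonoidAlgebra.single_mul_single, mul_inv_cancel, mul_one, MonoidAlgebra.one_def]
  have ha' : MonoidAlgebra.single g₀⁻¹ (1 : K) * a ≠ 0 := by
    intro h
    apply ha
    calc a = (MonoidAlgebra.single g₀ (1 : K) * MonoidAlgebra.single g₀⁻¹ (1 : K)) * a := by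
          rw [h2, one_mul]
      _ = MonoidAlgebra.single g₀ (1 : K) * (MonoidAlgebra.single g₀⁻¹ (1 : K) * a) :=
          mul_assoc _ _ _
      _ = 0 := by rw [h, mul_zero]
  have hab' : (MonoidAlgebra.single g₀⁻¹ (1 : K) * a) * b = 0 := by
    rw [mul_assoc, hab, mul_zero]
  have hsh : ∀ g ∈ (MonoidAlgebra.single g₀⁻¹ (1 : K) * a).coeff.support, g ∈ H := by
    intro g hg
    rw [Finsupp.mem_support_iff, MonoidAlgebra.coeff_single_mul_apply, one_mul, inv_inv] at hg
    have h3 := hsupp (g₀ * g) (Finsupp.mem_support_iff.mpr hg)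
    rwa [inv_mul_cancel_left] at h3
  have hS : ∀ h ∈ H, ∀ g : G,
      h⁻¹ * g ∈ {g : G | g * x⁻¹ ∈ H} ↔ g ∈ {g : G | g * x⁻¹ ∈ H} := by
    intro h hh g
    simp only [Set.mem_ofPred_eq]
    rw [mul_assoc]
    exact H.mul_mem_cancel_left (H.inv_mem hh)
  have hy : (MonoidAlgebra.single g₀⁻¹ (1 : K) * a) * restr {g : G | g * x⁻¹ ∈ H} b = 0 := by
    rw [← restr_mul H _ hS _ b hsh, hab', restr_zero]
  have hz : ∀ g ∈ (restr {g : G | g * x⁻¹ ∈ H} b *
      MonoidAlgebra.single x⁻¹ (1 : K)).coeff.support, g ∈ H := by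
    intro g hg
    rw [Finsupp.mem_support_iff, MonoidAlgebra.coeff_mul_single_apply, mul_one, inv_inv] at hg
    have h3 := restr_support _ b (g * x) (Finsupp.mem_support_iff.mpr hg)
    simp only [Set.mem_ofPred_eq] at h3
    rw [mul_inv_cancel_right] at h3
    exact h3
  have haz : (MonoidAlgebra.single g₀⁻¹ (1 : K) * a) *
      (restr {g : G | g * x⁻¹ ∈ H} b * MonoidAlgebra.single x⁻¹ (1 : K)) = 0 := by
    rw [← mul_assoc, hy, zero_mul]
  rcases eq_zero_of_domain_subgroup H hH _ _ hsh hz haz with h | h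
  · exact ha' h
  · have h4 := congrArg (fun w : MonoidAlgebra K G => w.coeff 1) h
    simp only [MonoidAlgebra.coeff_mul_single_apply, mul_one, inv_inv, one_mul,
      MonoidAlgebra.coeff_zero, Finsupp.coe_zero, Pi.zero_apply] at h4
    rw [coeff_restr, if_pos] at h4
    · exact (Finsupp.mem_support_iff.mp hx) h4
    · simp only [Set.mem_ofPred_eq]
      rw [mul_inv_cancel]
      exact H.one_mem

end Vale.Agent.Lib.P201.H7
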