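import Mathlib
import Vale.Agent.Lib.P194.H7.Restrict

/-!
# Zero divisors supported in a coset of an abelian subgroup (P201, helper7)

`eq_zero_of_subgroup`: in the group algebra of a torsion-free group over a field, two elements
supported in a finitely generated commutative subgroup `H` with product zero: one of them is zero
(the group algebra of `H` is a domain, by the unique product property of finitely generated
torsion-free commutative groups, from Mathlib).
-/

namespace Vale.Agent.Lib.P201.H7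

open Vale.Agent.Lib.P194.H7

variable {K G : Type*} [Field K] [Group G]

open scoped IsMulCommutative in
theorem eq_zero_of_subgroup (H : Subgroup G) (hH : ∀ x ∈ H, ∀ y ∈ H, x * y = y * x)
    (hfg : Group.FG H) (htf : ∀ g : G, ∀ n : ℕ, 0 < n → g ^ n = 1 → g = 1)
    (a z : MonoidAlgebra K G) (ha : ∀ g ∈ a.coeff.support, g ∈ H)
    (hz : ∀ g ∈ z.coeff.support, g ∈ H) (haz : a * z = 0) : a = 0 ∨ z = 0 := by
  classical
  have hI : IsMulCommutative H := ⟨⟨fun x y => Subtype.ext (hH x.1 x.2 y.1 y.2)⟩⟩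
  have hM : Monoid.FG H := Group.fg_iff_monoid_fg.mp hfg
  have hT : IsMulTorsionFree H := by
    refine ⟨fun n hn x y hxy => ?_⟩
    have hxy' : x ^ n = y ^ n := hxy
    have h1 : (x * y⁻¹) ^ n = 1 := by
      rw [mul_pow, inv_pow, hxy', mul_inv_cancel]
    have h2 : ((x * y⁻¹ : H) : G) ^ n = 1 := by
      have := congrArg (Subtype.val) h1
      simpa using this
    have h3 : ((x * y⁻¹ : H) : G) = 1 := htf _ n (Nat.pos_of_ne_zero hn) h2
    have h4 : x * y⁻¹ = 1 := Subtype.ext h3
    exact mul_inv_eq_one.mp h4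
  have hinj : Function.Injective (H.subtype : H → G) := Subtype.val_injective
  have ha₀ : MonoidAlgebra.mapDomain H.subtype (MonoidAlgebra.comapDomain H.subtype hinj a) = a :=
    MonoidAlgebra.mapDomain_comapDomain (fun g hg => ⟨⟨g, ha g hg⟩, rfl⟩) hinj
  have hz₀ : MonoidAlgebra.mapDomain H.subtype (MonoidAlgebra.comapDomain H.subtype hinj z) = z :=
    MonoidAlgebra.mapDomain_comapDomain (fun g hg => ⟨⟨g, hz g hg⟩, rfl⟩) hinj
  have hprod : MonoidAlgebra.comapDomain H.subtype hinj a *
      MonoidAlgebra.comapDomain H.subtype hinj z = 0 := by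
    apply MonoidAlgebra.mapDomain_injective hinj
    rw [MonoidAlgebra.mapDomain_mul, ha₀, hz₀, haz, MonoidAlgebra.mapDomain_zero]
  rcases mul_eq_zero.mp hprod with h | h
  · left
    rw [← ha₀, h, MonoidAlgebra.mapDomain_zero]
  · right
    rw [← hz₀, h, MonoidAlgebra.mapDomain_zero]

theorem quotSubgroup_fg (g₀ : G) (a : MonoidAlgebra K G) : Group.FG (quotSubgroup g₀ a) := by
  classical
  have hEq : quotSubgroup g₀ a =
      Subgroup.closure ((a.coeff.support.image (fun g => g₀⁻¹ * g) : Finset G) : Set G) := by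
    unfold quotSubgroup
    congr 1
    ext x
    simp only [Set.mem_ofPred_eq, Finset.coe_image, Set.mem_image, Finset.mem_coe]
    constructor
    · rintro ⟨g, hg, rfl⟩
      exact ⟨g, hg, rfl⟩
    · rintro ⟨g, hg, rfl⟩
      exact ⟨g, hg, rfl⟩
  rw [hEq]
  exact Group.closure_finset_fg _

/-- In the group algebra of a torsion-free group over a field, a nonzero element whose support
lies in a left coset of a commutative subgroup is not a left zero divisor. -/
theorem eq_zero_of_commute_support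
    (htf : ∀ g : G, ∀ n : ℕ, 0 < n → g ^ n = 1 → g = 1)
    (a b : MonoidAlgebra K G)
    (hc : ∀ g₁ ∈ a.coeff.support, ∀ g₂ ∈ a.coeff.support, ∀ g₃ ∈ a.coeff.support,
      ∀ g₄ ∈ a.coeff.support, (g₁⁻¹ * g₂) * (g₃⁻¹ * g₄) = (g₃⁻¹ * g₄) * (g₁⁻¹ * g₂))
    (hab : a * b = 0) : a = 0 ∨ b = 0 := by
  classical
  by_contra hne
  push Not at hne
  obtain ⟨ha, hb⟩ := hne
  have hane : a.coeff.support.Nonempty := by
    rw [Finset.nonempty_iff_ne_empty]
    intro h
    exact ha (MonoidAlgebra.ext (Finsupp.support_eq_empty.mp h))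
  have hbne : b.coeff.support.Nonempty := by
    rw [Finset.nonempty_iff_ne_empty]
    intro h
    exact hb (MonoidAlgebra.ext (Finsupp.support_eq_empty.mp h))
  obtain ⟨g₀, hg₀⟩ := hane
  obtain ⟨x, hx⟩ := hbne
  have h2 : MonoidAlgebra.single g₀ (1 : K) * MonoidAlgebra.single g₀⁻¹ (1 : K) = 1 := by
    rw [MonoidAlgebra.single_mul_single, mul_inv_cancel, mul_one, MonoidAlgebra.one_def]
  have ha' : MonoidAlgebra.single g₀⁻¹ (1 : K) * a ≠ 0 := by
    intro h
    apply ha
    calc a = (MonoidAlgebra.single g₀ (1 : K) * MonoidAlgebra.single g₀⁻¹ (1 : K)) * a := by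
          rw [h2, one_mul]
      _ = MonoidAlgebra.single g₀ (1 : K) * (MonoidAlgebra.single g₀⁻¹ (1 : K) * a) :=
          mul_assoc _ _ _
      _ = 0 := by rw [h, mul_zero]
  have hab' : (MonoidAlgebra.single g₀⁻¹ (1 : K) * a) * b = 0 := by
    rw [mul_assoc, hab, mul_zero]
  have hS : ∀ h ∈ quotSubgroup g₀ a, ∀ g : G,
      h⁻¹ * g ∈ {g : G | g * x⁻¹ ∈ quotSubgroup g₀ a} ↔
        g ∈ {g : G | g * x⁻¹ ∈ quotSubgroup g₀ a} := by
    intro h hh g
    simp only [Set.mem_ofPred_eq]
    rw [mul_assoc]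
    exact (quotSubgroup g₀ a).mul_mem_cancel_left ((quotSubgroup g₀ a).inv_mem hh)
  have hy : (MonoidAlgebra.single g₀⁻¹ (1 : K) * a) *
      restr {g : G | g * x⁻¹ ∈ quotSubgroup g₀ a} b = 0 := by
    rw [← restr_mul (quotSubgroup g₀ a) _ hS _ b (shift_support g₀ a), hab', restr_zero]
  have hz : ∀ g ∈ (restr {g : G | g * x⁻¹ ∈ quotSubgroup g₀ a} b *
      MonoidAlgebra.single x⁻¹ (1 : K)).coeff.support, g ∈ quotSubgroup g₀ a := by
    intro g hg
    rw [Finsupp.mem_support_iff, MonoidAlgebra.coeff_mul_single_apply, mul_one, inv_inv] at hg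
    have h3 := restr_support _ b (g * x) (Finsupp.mem_support_iff.mpr hg)
    simp only [Set.mem_ofPred_eq] at h3
    rw [mul_inv_cancel_right] at h3
    exact h3
  have haz : (MonoidAlgebra.single g₀⁻¹ (1 : K) * a) *
      (restr {g : G | g * x⁻¹ ∈ quotSubgroup g₀ a} b * MonoidAlgebra.single x⁻¹ (1 : K)) = 0 := by
    rw [← mul_assoc, hy, zero_mul]
  rcases eq_zero_of_subgroup (quotSubgroup g₀ a) (quotSubgroup_comm g₀ a hg₀ hc)
    (quotSubgroup_fg g₀ a) htf _ _ (shift_support g₀ a) hz haz with h | h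
  · exact ha' h
  · have h4 := congrArg (fun w : MonoidAlgebra K G => w.coeff 1) h
    simp only [MonoidAlgebra.coeff_mul_single_apply, mul_one, inv_inv, one_mul,
      MonoidAlgebra.coeff_zero, Finsupp.coe_zero, Pi.zero_apply] at h4
    rw [coeff_restr, if_pos] at h4
    · exact (Finsupp.mem_support_iff.mp hx) h4
    · simp only [Set.mem_ofPred_eq]
      rw [mul_inv_cancel]
      exact (quotSubgroup g₀ a).one_mem

end Vale.Agent.Lib.P201.H7
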